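import Vale.Agent.P067.Rank2.Plane
import Vale.Agent.P067.Final
import Vale.Agent.P067.Alg.Gen

/-!
The residues of rank two. A finite stabiliser with two missing types is spanned by two simple root
groups: they commute when the types are not adjacent and give a Heisenberg group when they are.
-/

open Matrix Polynomial

namespace Vale.Agent.P067.Rank2

variable {n p : ℕ} [Fact p.Prime]

/-- The predecessor of a type on the cycle. -/
def pre (a : Fin n) : Fin n :=
  ⟨if (a : ℕ) = 0 then n - 1 else (a : ℕ) - 1, by split_ifs <;> have := a.isLt <;> omega⟩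

theorem pre_ne (hn : 2 ≤ n) (a : Fin n) : a ≠ pre a := by
  intro h
  have h' := congrArg Fin.val h
  simp only [pre] at h'
  split_ifs at h' <;> omega

theorem allowed_pre {x a : Fin n} (h : x ≠ a) : Allowed x a (pre a) := by
  have := a.isLt
  have := x.isLt
  simp only [Allowed, wind, pre, ne_eq, Fin.ext_iff, Fin.lt_def] at h ⊢
  split_ifs <;> omega

theorem allowed_pre_pre {x t u : Fin n} (hu : pre t = u) (hx : x ≠ t) (hx' : x ≠ u) :
    Allowed x t (pre u) := by
  subst hu
  have := t.isLt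
  have := x.isLt
  simp only [Allowed, wind, pre, ne_eq, Fin.ext_iff, Fin.lt_def] at hx hx' ⊢
  split_ifs at hx' ⊢ <;> omega

theorem wind_pre (hn : 3 ≤ n) {t u : Fin n} (hu : pre t = u) :
    wind t u + wind u (pre u) = wind t (pre u) ∧ t ≠ pre u := by
  subst hu
  have := t.isLt
  simp only [wind, pre, ne_eq, Fin.ext_iff, Fin.lt_def]
  split_ifs <;> omega

/-- The successor of a type on the cycle. -/
def suc (a : Fin n) : Fin n :=
  ⟨if (a : ℕ) + 1 = n then 0 else (a : ℕ) + 1, by split_ifs <;> have := a.isLt <;> omega⟩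

theorem not_allowed_self {i j : Fin n} (hij : i ≠ j) : ¬ Allowed i i j := by
  have := i.isLt
  have := j.isLt
  simp only [Allowed, wind, ne_eq, Fin.ext_iff, Fin.lt_def] at hij ⊢
  split_ifs <;> omega

theorem not_allowed_suc {i j : Fin n} (hij : i ≠ j) : ¬ Allowed (suc j) i j := by
  have := i.isLt
  have := j.isLt
  simp only [Allowed, wind, suc, ne_eq, Fin.ext_iff, Fin.lt_def] at hij ⊢
  split_ifs <;> omega

theorem not_allowed_suc_suc {i j : Fin n} (hij : i ≠ j) (h : i ≠ suc j) :
    ¬ Allowed (suc (suc j)) i j := by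
  have := i.isLt
  have := j.isLt
  simp only [Allowed, wind, suc, ne_eq, Fin.ext_iff, Fin.lt_def] at hij h ⊢
  split_ifs at h ⊢ <;> omega

theorem pre_suc (j : Fin n) : pre (suc j) = j := by
  have := j.isLt
  rcases eq_or_ne ((j : ℕ) + 1) n with h | h <;> simp [pre, suc, Fin.ext_iff, h]
  omega

theorem suc_ne (hn : 2 ≤ n) (j : Fin n) : suc j ≠ j := by
  have := j.isLt
  simp only [suc, ne_eq, Fin.ext_iff]
  split_ifs <;> omega

/-- The positions allowed at all types but two. -/
theorem allowed_class (hn : 2 ≤ n) {i j t u : Fin n} (hij : i ≠ j)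
    (h : ∀ a, a ≠ t → a ≠ u → Allowed a i j) :
    (i = t ∧ j = pre t) ∨ (i = u ∧ j = pre u) ∨ (pre t = u ∧ i = t ∧ j = pre u) ∨
      (pre u = t ∧ i = u ∧ j = pre t) := by
  have key : ∀ a, ¬ Allowed a i j → a = t ∨ a = u := fun a ha => by
    by_contra hc
    push Not at hc
    exact ha (h a hc.1 hc.2)
  have h1 := key i (not_allowed_self hij)
  by_cases hs : i = suc j
  · have : j = pre i := by rw [hs, pre_suc]
    rcases h1 with rfl | rfl
    · exact Or.inl ⟨rfl, this⟩
    · exact Or.inr (Or.inl ⟨rfl, this⟩)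
  · have h2 := key _ (not_allowed_suc hij)
    have h3 := key _ (not_allowed_suc_suc hij hs)
    have h4 := suc_ne hn (suc j)
    rcases h1 with rfl | rfl
    · have e2 : suc j = u := h2.resolve_left (Ne.symm hs)
      have e3 : suc (suc j) = i := h3.resolve_right (e2 ▸ h4)
      refine Or.inr (Or.inr (Or.inl ⟨?_, rfl, by rw [← e2, pre_suc]⟩))
      rw [← e3, pre_suc, e2]
    · have e2 : suc j = t := h2.resolve_right (Ne.symm hs)
      have e3 : suc (suc j) = i := h3.resolve_left (e2 ▸ h4)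
      refine Or.inr (Or.inr (Or.inr ⟨?_, rfl, by rw [← e2, pre_suc]⟩))
      rw [← e3, pre_suc, e2]

/-- A monomial at a position. -/
noncomputable def mono (i j : Fin n) (c : ZMod p) : Matrix (Fin n) (Fin n) (ZMod p)[X] :=
  Matrix.single i j (C c * X ^ wind i j)

theorem mono_apply (i j : Fin n) (c : ZMod p) (a b : Fin n) :
    mono i j c a b = if i = a ∧ j = b then C c * X ^ wind i j else 0 := Matrix.single_apply ..

theorem mono_coeff_self (i j : Fin n) (c : ZMod p) :
    (mono i j c i j).coeff (wind i j) = c := by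
  rw [mono_apply, if_pos ⟨rfl, rfl⟩, Polynomial.coeff_C_mul_X_pow, if_pos rfl]

theorem mono_sub (i j : Fin n) (c d : ZMod p) : mono i j (c - d) = mono i j c - mono i j d := by
  ext a b : 1
  simp only [Matrix.sub_apply, mono_apply]
  split_ifs <;> simp [sub_mul]

theorem mono_mul_of_ne {i j k l : Fin n} (h : j ≠ k) (c d : ZMod p) :
    mono i j c * mono k l d = 0 := Matrix.single_mul_single_of_ne _ _ _ _ h _

theorem coe_rootElt {i j : Fin n} (hij : i ≠ j) (c : ZMod p) :
    (rootElt hij c).1.1 = 1 + mono i j c := rootElt_apply hij c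

theorem ext_U {g g' : ↥(U n p)} (h : g.1.1 = g'.1.1) : g = g' := Subtype.ext (Subtype.ext h)

/-- An element of a finite stabiliser is determined by its allowed positions. -/
theorem eq_of_allowed {T : Finset (Fin n)} (hT : T.Nonempty) {g g' : ↥(U n p)}
    (hg : g ∈ K n p T) (hg' : g' ∈ K n p T)
    (h : ∀ i j, i ≠ j → (∀ a ∈ T, Allowed a i j) →
      (g.1.1 i j).coeff (wind i j) = (g'.1.1 i j).coeff (wind i j)) : g = g' := by
  refine ext_U (Matrix.ext fun i j => ?_)
  obtain ⟨h1, h2⟩ := entry_eq_zero_or hT hg i j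
  obtain ⟨h1', h2'⟩ := entry_eq_zero_or hT hg' i j
  by_cases hij : i = j
  · rw [h1 hij, h1' hij]
  · rw [(h2 hij).1, (h2' hij).1]
    by_cases hall : ∀ a ∈ T, Allowed a i j
    · rw [h i j hij hall]
    · have e : ∀ x : ↥(U n p), x ∈ K n p T → (x.1.1 i j).coeff (wind i j) = 0 := fun x hx => by
        by_contra hne
        exact hall (((entry_eq_zero_or hT hx i j).2 hij).2 hne)
      rw [e g hg, e g' hg']

section Pairs

variable {T : Finset (Fin n)}

theorem invariant {a : Fin n} {f : ↥(K n p T) → ℝ} (hT : a ∉ T) {b : Fin n} (hb : b ∉ T)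
    (hall : ∀ x, x ∉ T → x = a ∨ x = b) (hab : a ≠ b)
    (hf : ∀ x y, x⁻¹ * y ∈ (K n p (insert b T)).subgroupOf (K n p T) → f x = f y)
    (hne : a ≠ pre a) (c : ZMod p) (x y : ↥(K n p T))
    (h : (y : ↥(U n p)) = x * rootElt hne c) : f x = f y := by
  refine hf x y ?_
  rw [Subgroup.mem_subgroupOf, Subgroup.coe_mul, Subgroup.coe_inv, h, inv_mul_cancel_left]
  refine rootElt_mem_K hne c fun z hz => allowed_pre ?_
  rcases Finset.mem_insert.1 hz with rfl | hz
  · exact hab.symm
  · exact fun e => hT (e ▸ hz)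

/-- Two root groups which commute. -/
theorem commuting_case (hn : 3 ≤ n) {t u : Fin n} (ht : t ∉ T) (hu : u ∉ T) (htu : t ≠ u)
    (hT : T.Nonempty) (hall : ∀ x, x ∉ T → x = t ∨ x = u) (h1 : pre t ≠ u) (h2 : pre u ≠ t)
    [Fintype ↥(K n p T)] (f g : ↥(K n p T) → ℝ)
    (hf : ∀ x y, x⁻¹ * y ∈ (K n p (insert t T)).subgroupOf (K n p T) → f x = f y)
    (hg : ∀ x y, x⁻¹ * y ∈ (K n p (insert u T)).subgroupOf (K n p T) → g x = g y) :
    ∑ x, f x * g x = (∑ x, f x) * (∑ x, g x) / Fintype.card ↥(K n p T) := by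
  have nt := pre_ne (by omega) t
  have nu := pre_ne (by omega) u
  have mt : ∀ c : ZMod p, rootElt nt c ∈ K n p T := fun c =>
    rootElt_mem_K nt c fun a ha => allowed_pre fun e : a = t => ht (e ▸ ha)
  have mu : ∀ c : ZMod p, rootElt nu c ∈ K n p T := fun c =>
    rootElt_mem_K nu c fun a ha => allowed_pre fun e : a = u => hu (e ▸ ha)
  set e : ZMod p × ZMod p → ↥(K n p T) := fun v =>
    ⟨rootElt nt v.1 * rootElt nu v.2, mul_mem (mt _) (mu _)⟩ with he
  have hmat : ∀ v, (e v).1.1.1 = 1 + mono t (pre t) v.1 + mono u (pre u) v.2 := fun v => by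
    simp only [he, Subgroup.coe_mul, Matrix.SpecialLinearGroup.coe_mul, coe_rootElt, mul_add,
      add_mul, one_mul, mul_one, mono_mul_of_ne h1, add_zero]
  have hco1 : ∀ v, ((e v).1.1.1 t (pre t)).coeff (wind t (pre t)) = v.1 := fun v => by
    rw [hmat, Matrix.add_apply, Matrix.add_apply, Matrix.one_apply_ne nt, zero_add,
      Polynomial.coeff_add, mono_coeff_self, mono_apply, if_neg fun h => htu h.1.symm,
      Polynomial.coeff_zero, add_zero]
  have hco2 : ∀ v, ((e v).1.1.1 u (pre u)).coeff (wind u (pre u)) = v.2 := fun v => by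
    rw [hmat, Matrix.add_apply, Matrix.add_apply, Matrix.one_apply_ne nu, zero_add,
      Polynomial.coeff_add, mono_coeff_self, mono_apply, if_neg fun h => htu h.1,
      Polynomial.coeff_zero, zero_add]
  have hbij : Function.Bijective e := by
    refine ⟨fun v v' h => Prod.ext ?_ ?_, fun k => ⟨((k.1.1.1 t (pre t)).coeff (wind t (pre t)),
      (k.1.1.1 u (pre u)).coeff (wind u (pre u))), Subtype.ext ?_⟩⟩
    · rw [← hco1 v, h, hco1]
    · rw [← hco2 v, h, hco2]
    · refine eq_of_allowed hT (e _).2 k.2 fun i j hij hA => ?_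
      rcases allowed_class (by omega) hij (fun a ha ha' => hA a (by_contra fun ha'' =>
        (hall a ha'').elim ha ha')) with ⟨rfl, rfl⟩ | ⟨rfl, rfl⟩ | ⟨h, -⟩ | ⟨h, -⟩
      · exact hco1 _
      · exact hco2 _
      · exact absurd h h1
      · exact absurd h h2
  have hswap : ∀ v : ZMod p × ZMod p, (rootElt nt v.1 * rootElt nu v.2 : ↥(U n p)) =
      rootElt nu v.2 * rootElt nt v.1 := fun v => ext_U (by
    simp only [Subgroup.coe_mul, Matrix.SpecialLinearGroup.coe_mul, coe_rootElt, mul_add,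
      add_mul, one_mul, mul_one, mono_mul_of_ne h1, mono_mul_of_ne h2, add_zero]
    abel)
  set F : ZMod p → ℝ := fun x => f ⟨rootElt nt x, mt x⟩
  set G : ZMod p → ℝ := fun y => g ⟨rootElt nu y, mu y⟩
  have hfe : ∀ v, f (e v) = F v.1 := fun v =>
    (invariant hu ht (fun x hx => (hall x hx).symm) htu.symm hf nu v.2 ⟨_, mt v.1⟩ (e v) rfl).symm
  have hge : ∀ v, g (e v) = G v.2 := fun v =>
    (invariant ht hu hall htu hg nt v.1 ⟨_, mu v.2⟩ (e v) (hswap v)).symm
  have hs : ∀ w : ↥(K n p T) → ℝ, ∑ x, w x = ∑ v, w (e v) := fun w =>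
    (Fintype.sum_bijective e hbij _ _ fun v => rfl).symm
  have hcard : (Fintype.card ↥(K n p T) : ℝ) = p * p := by
    rw [← Fintype.card_of_bijective hbij]
    simp
  have hp : (p : ℝ) ≠ 0 := Nat.cast_ne_zero.2 (Fact.out (p := p.Prime)).ne_zero
  rw [hs, hs f, hs g, hcard]
  simp only [hfe, hge, Fintype.sum_prod_type, ← Finset.mul_sum, ← Finset.sum_mul,
    Finset.sum_const, Finset.card_univ, ZMod.card, nsmul_eq_mul]
  field_simp

/-- Two root groups which generate a Heisenberg group. -/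
theorem adjacent_case (hn : 3 ≤ n) {t u : Fin n} (ht : t ∉ T) (hu : u ∉ T) (htu : t ≠ u)
    (hT : T.Nonempty) (hall : ∀ x, x ∉ T → x = t ∨ x = u) (h1 : pre t = u)
    [Fintype ↥(K n p T)] (f g : ↥(K n p T) → ℝ)
    (hf : ∀ x y, x⁻¹ * y ∈ (K n p (insert t T)).subgroupOf (K n p T) → f x = f y)
    (hg : ∀ x y, x⁻¹ * y ∈ (K n p (insert u T)).subgroupOf (K n p T) → g x = g y) :
    ∑ x, f x * g x ≤ (∑ x, f x) * (∑ x, g x) / Fintype.card ↥(K n p T) +
      Real.sqrt (1 / p) * Real.sqrt ((∑ x, f x ^ 2) * ∑ x, g x ^ 2) := by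
  obtain ⟨hw, ntj⟩ := wind_pre hn h1
  have nt := pre_ne (by omega) t
  have nu := pre_ne (by omega) u
  set j := pre u with hj
  have mt : ∀ c : ZMod p, rootElt nt c ∈ K n p T := fun c =>
    rootElt_mem_K nt c fun a ha => allowed_pre fun e : a = t => ht (e ▸ ha)
  have mu : ∀ c : ZMod p, rootElt nu c ∈ K n p T := fun c =>
    rootElt_mem_K nu c fun a ha => allowed_pre fun e : a = u => hu (e ▸ ha)
  have mz : ∀ c : ZMod p, rootElt ntj c ∈ K n p T := fun c =>
    rootElt_mem_K ntj c fun a ha => allowed_pre_pre h1 (fun e : a = t => ht (e ▸ ha))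
      fun e : a = u => hu (e ▸ ha)
  set e : ZMod p × ZMod p × ZMod p → ↥(K n p T) := fun v =>
    ⟨rootElt nu v.2.1 * rootElt ntj v.2.2 * rootElt nt v.1,
      mul_mem (mul_mem (mu _) (mz _)) (mt _)⟩ with he
  have hju : j ≠ u := (Ne.symm nu)
  have hmat : ∀ v, (e v).1.1.1 =
      1 + mono u j v.2.1 + mono t j v.2.2 + mono t (pre t) v.1 := fun v => by
    simp only [he, Subgroup.coe_mul, Matrix.SpecialLinearGroup.coe_mul, coe_rootElt, mul_add,
      add_mul, one_mul, mul_one, mono_mul_of_ne ntj.symm, zero_mul, add_zero]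
  have hswap : ∀ v, ((e v).1 : ↥(U n p)) =
      rootElt ntj (v.2.2 - v.1 * v.2.1) * rootElt nt v.1 * rootElt nu v.2.1 := fun v => ext_U (by
    have hprod : mono t (pre t) v.1 * mono u j v.2.1 = mono t j (v.1 * v.2.1) := by
      rw [h1, mono, mono, Matrix.single_mul_single_same, mono, ← hw, C_mul, pow_add]
      congr 1
      ring
    rw [hmat]
    simp only [Subgroup.coe_mul, Matrix.SpecialLinearGroup.coe_mul, coe_rootElt, mul_add,
      add_mul, one_mul, mul_one, mono_mul_of_ne ntj.symm, mono_mul_of_ne hju, zero_mul, add_zero,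
      hprod, mono_sub, sub_mul, sub_zero]
    abel)
  have hco1 : ∀ v, ((e v).1.1.1 t (pre t)).coeff (wind t (pre t)) = v.1 := fun v => by
    rw [hmat, Matrix.add_apply, Matrix.add_apply, Matrix.add_apply, Matrix.one_apply_ne nt,
      mono_apply u j, if_neg fun h => htu h.1.symm, mono_apply t j,
      if_neg fun h => hju (h.2.trans h1), zero_add, zero_add, zero_add, mono_coeff_self]
  have hco2 : ∀ v, ((e v).1.1.1 u j).coeff (wind u j) = v.2.1 := fun v => by
    rw [hmat, Matrix.add_apply, Matrix.add_apply, Matrix.add_apply, Matrix.one_apply_ne nu,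
      mono_apply t j, if_neg fun h => htu h.1, mono_apply t (pre t), if_neg fun h => htu h.1,
      zero_add, add_zero, add_zero, mono_coeff_self]
  have hco3 : ∀ v, ((e v).1.1.1 t j).coeff (wind t j) = v.2.2 := fun v => by
    rw [hmat, Matrix.add_apply, Matrix.add_apply, Matrix.add_apply, Matrix.one_apply_ne ntj,
      mono_apply u j, if_neg fun h => htu h.1.symm, mono_apply t (pre t),
      if_neg fun h => hju ((h1 ▸ h.2).symm), zero_add, zero_add, add_zero, mono_coeff_self]
  have hbij : Function.Bijective e := by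
    refine ⟨fun v v' h => Prod.ext ?_ (Prod.ext ?_ ?_), fun k =>
      ⟨((k.1.1.1 t (pre t)).coeff (wind t (pre t)), (k.1.1.1 u j).coeff (wind u j),
        (k.1.1.1 t j).coeff (wind t j)), Subtype.ext ?_⟩⟩
    · rw [← hco1 v, h, hco1]
    · rw [← hco2 v, h, hco2]
    · rw [← hco3 v, h, hco3]
    · refine eq_of_allowed hT (e _).2 k.2 fun a b hab hA => ?_
      rcases allowed_class (by omega) hab (fun x hx hx' => hA x (by_contra fun hx'' =>
        (hall x hx'').elim hx hx')) with ⟨rfl, rfl⟩ | ⟨rfl, rfl⟩ | ⟨-, rfl, rfl⟩ | ⟨h2, -, -⟩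
      · exact hco1 _
      · exact hco2 _
      · exact hco3 _
      · exfalso
        have := congrArg Fin.val h1
        have := congrArg Fin.val h2
        have := t.isLt
        simp only [hj, pre] at *
        split_ifs at * <;> omega
  set F : ZMod p × ZMod p → ℝ := fun w =>
    g ⟨rootElt nu w.1 * rootElt ntj w.2, mul_mem (mu _) (mz _)⟩ with hF
  set G : ZMod p × ZMod p → ℝ := fun w =>
    f ⟨rootElt ntj w.2 * rootElt nt w.1, mul_mem (mz _) (mt _)⟩ with hG
  have hge : ∀ v, g (e v) = F (v.2.1, v.2.2) := fun v =>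
    (invariant ht hu hall htu hg nt v.1
      ⟨rootElt nu v.2.1 * rootElt ntj v.2.2, mul_mem (mu _) (mz _)⟩ (e v) rfl).symm
  have hfe : ∀ v, f (e v) = G (v.1, v.2.2 - v.1 * v.2.1) := fun v =>
    (invariant hu ht (fun x hx => (hall x hx).symm) htu.symm hf nu v.2.1
      ⟨rootElt ntj (v.2.2 - v.1 * v.2.1) * rootElt nt v.1, mul_mem (mz _) (mt _)⟩ (e v)
      (hswap v)).symm
  have hs : ∀ w : ↥(K n p T) → ℝ, ∑ x, w x = ∑ v, w (e v) := fun w =>
    (Fintype.sum_bijective e hbij _ _ fun v => rfl).symm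
  have hp0 : (0 : ℝ) < p := Nat.cast_pos.2 (Fact.out (p := p.Prime)).pos
  have hcard : (Fintype.card ↥(K n p T) : ℝ) = p * (p * p) := by
    rw [← Fintype.card_of_bijective hbij]
    simp
  have hFs : ∀ W : ZMod p × ZMod p → ℝ,
      ∑ v : ZMod p × ZMod p × ZMod p, W (v.2.1, v.2.2) = p * ∑ w, W w := fun W => by
    rw [Fintype.sum_prod_type]
    simp [Finset.sum_const, Finset.card_univ]
  have hGs : ∀ W : ZMod p × ZMod p → ℝ,
      ∑ v : ZMod p × ZMod p × ZMod p, W (v.1, v.2.2 - v.1 * v.2.1) = p * ∑ w, W w := fun W => by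
    have hy : ∀ x y, ∑ z, W (x, z - x * y) = ∑ z, W (x, z) := fun x y =>
      Fintype.sum_equiv (Equiv.subRight (x * y)) _ _ fun z => rfl
    simp only [Fintype.sum_prod_type, hy, Finset.sum_const, Finset.card_univ, ZMod.card,
      nsmul_eq_mul, ← Finset.mul_sum]
  rw [hs, hs f, hs g, hs (fun x => f x ^ 2), hs (fun x => g x ^ 2), hcard]
  simp only [hfe, hge, hFs, hGs, mul_comm (G _)]
  rw [hFs (fun w => F w ^ 2), hGs (fun w => G w ^ 2), sum_lineSum_mul F G]
  refine (plane_le F G).trans (le_of_eq ?_)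
  congr 1
  · field_simp
  · rw [show (p : ℝ) * (∑ w, G w ^ 2) * ((p : ℝ) * ∑ w, F w ^ 2) =
        (p : ℝ) ^ 2 * ((∑ w, F w ^ 2) * ∑ w, G w ^ 2) by ring,
      Real.sqrt_mul (sq_nonneg _), Real.sqrt_sq hp0.le, ← mul_assoc]
    congr 1
    rw [one_div, Real.sqrt_inv, inv_mul_eq_div, Real.div_sqrt]

end Pairs

end Vale.Agent.P067.Rank2

namespace Vale.Agent.P067

open Rank2 in
/-- The residues of rank two have a gap. -/
theorem rankTwo_ok : RankTwoStatement := by
  intro n hn p _ S hS t u ht hu htu _ f g hf hg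
  have hall : ∀ x, x ∉ S → x = t ∨ x = u := by
    intro x hx
    by_contra h
    push Not at h
    have hsub : ({x, t, u} : Finset (Fin n)) ⊆ Sᶜ := by
      intro y hy
      simp only [Finset.mem_insert, Finset.mem_singleton] at hy
      rcases hy with rfl | rfl | rfl <;> simpa
    have h3 : ({x, t, u} : Finset (Fin n)).card = 3 :=
      Finset.card_eq_three.2 ⟨x, t, u, h.1, h.2, htu, rfl⟩
    have := Finset.card_le_card hsub
    rw [h3, Finset.card_compl, Fintype.card_fin] at this
    omega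
  have hT : S.Nonempty := Finset.card_pos.1 (by omega)
  have hR : 0 ≤ Real.sqrt (1 / p) * Real.sqrt ((∑ x, f x ^ 2) * ∑ x, g x ^ 2) := by positivity
  by_cases h1 : pre t = u
  · exact adjacent_case hn ht hu htu hT hall h1 f g hf hg
  by_cases h2 : pre u = t
  · have h := adjacent_case hn hu ht htu.symm hT (fun x hx => (hall x hx).symm) h2 g f hg hf
    rw [Finset.sum_congr rfl fun x _ => mul_comm (g x) (f x), mul_comm (∑ x, g x),
      mul_comm (∑ x, g x ^ 2)] at h
    exact h
  · rw [commuting_case hn ht hu htu hT hall h1 h2 f g hf hg]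
    linarith

end Vale.Agent.P067
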