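import Mathlib

/-!
Incidence of points and lines in the affine plane over a prime field, in the form used for the
residues of rank two: summing a function along the lines of every slope.
-/

namespace Vale.Agent.P067.Rank2

open Finset

variable {p : ℕ} [Fact p.Prime]

/-- The sum of `F` along the line through `(0, w)` of slope `x`. -/
def lineSum (F : ZMod p × ZMod p → ℝ) (v : ZMod p × ZMod p) : ℝ :=
  ∑ y, F (y, v.2 + v.1 * y)

theorem sum_lineSum_sq_le (F : ZMod p × ZMod p → ℝ) :
    ∑ v, lineSum F v ^ 2 ≤ (∑ v, F v) ^ 2 + p * ∑ v, F v ^ 2 := by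
  set S : ZMod p → ℝ := fun y => ∑ z, F (y, z) with hS
  have hpair : ∀ y y' : ZMod p, y ≠ y' →
      ∑ v : ZMod p × ZMod p, F (y, v.2 + v.1 * y) * F (y', v.2 + v.1 * y') = S y * S y' := by
    intro y y' hne
    rw [hS, Finset.sum_mul_sum, ← Finset.sum_product', Finset.univ_product_univ]
    have hne' : y - y' ≠ 0 := sub_ne_zero.2 hne
    refine Fintype.sum_bijective (fun v : ZMod p × ZMod p => (v.2 + v.1 * y, v.2 + v.1 * y'))
      ?_ _ _ fun v => rfl
    refine Finite.injective_iff_bijective.1 fun v v' h => ?_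
    obtain ⟨h1, h2⟩ := Prod.ext_iff.1 h
    simp only at h1 h2
    have hx : v.1 = v'.1 := mul_right_cancel₀ hne' (by linear_combination h1 - h2)
    refine Prod.ext hx ?_
    rw [hx] at h1
    exact add_right_cancel h1
  have hdiag : ∀ y : ZMod p,
      ∑ v : ZMod p × ZMod p, F (y, v.2 + v.1 * y) * F (y, v.2 + v.1 * y) =
        p * ∑ z, F (y, z) ^ 2 := by
    intro y
    rw [Fintype.sum_prod_type, Finset.sum_congr rfl fun x _ => ?_]
    · rw [Finset.sum_const, Finset.card_univ, ZMod.card, nsmul_eq_mul]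
    · exact Fintype.sum_equiv (Equiv.addRight (x * y)) _ _ fun z => (sq _).symm
  calc ∑ v, lineSum F v ^ 2
      = ∑ y, ∑ y', ∑ v : ZMod p × ZMod p, F (y, v.2 + v.1 * y) * F (y', v.2 + v.1 * y') := by
        simp only [lineSum, sq, Finset.sum_mul_sum]
        rw [Finset.sum_comm]
        exact Finset.sum_congr rfl fun y _ => Finset.sum_comm
    _ ≤ ∑ y, ∑ y', (S y * S y' + if y = y' then p * ∑ z, F (y, z) ^ 2 else 0) := by
        refine Finset.sum_le_sum fun y _ => Finset.sum_le_sum fun y' _ => ?_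
        by_cases h : y = y'
        · subst h
          rw [if_pos rfl, hdiag]
          exact le_add_of_nonneg_left (mul_self_nonneg _)
        · rw [if_neg h, add_zero, hpair y y' h]
    _ = _ := by
        simp only [Finset.sum_add_distrib, Finset.sum_ite_eq, Finset.mem_univ, if_true,
          ← Finset.mul_sum, ← Finset.sum_mul, hS, ← Fintype.sum_prod_type, sq]
        rw [Fintype.sum_prod_type (f := fun v => F v * F v)]

theorem sum_lineSum_mul (F G : ZMod p × ZMod p → ℝ) :
    ∑ v : ZMod p × ZMod p × ZMod p, F (v.2.1, v.2.2) * G (v.1, v.2.2 - v.1 * v.2.1) =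
      ∑ w, lineSum F w * G w := by
  simp only [lineSum, Finset.sum_mul, Fintype.sum_prod_type]
  refine Finset.sum_congr rfl fun x _ => ?_
  rw [Finset.sum_comm (γ := ZMod p) (f := fun w y => F (y, w + x * y) * G (x, w))]
  refine Finset.sum_congr rfl fun y _ => ?_
  refine Fintype.sum_equiv (Equiv.subRight (x * y)) _ _ fun z => ?_
  simp

/-- Functions of the points and of the lines are almost independent. -/
theorem plane_le (F G : ZMod p × ZMod p → ℝ) :
    ∑ v, lineSum F v * G v ≤ (∑ v, F v) * (∑ v, G v) / p +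
      Real.sqrt p * Real.sqrt ((∑ v, F v ^ 2) * ∑ v, G v ^ 2) := by
  have hp : (0 : ℝ) < p := Nat.cast_pos.2 (Fact.out (p := p.Prime)).pos
  set s := ∑ v, F v with hs
  set μ := s / (p : ℝ) ^ 2 with hμ
  set F' : ZMod p × ZMod p → ℝ := fun v => F v - μ with hF'
  have hcard : (Fintype.card (ZMod p × ZMod p) : ℝ) = (p : ℝ) ^ 2 := by simp [sq]
  have h0 : ∑ v, F' v = 0 := by
    simp only [hF', Finset.sum_sub_distrib, Finset.sum_const, Finset.card_univ, nsmul_eq_mul,
      hcard, hμ, ← hs]
    field_simp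
    ring
  have h2 : ∑ v, F' v ^ 2 ≤ ∑ v, F v ^ 2 := by
    have : ∑ v, F v ^ 2 = ∑ v, F' v ^ 2 + (p : ℝ) ^ 2 * μ ^ 2 := by
      have e : ∀ v, F v ^ 2 = F' v ^ 2 + 2 * μ * F' v + μ ^ 2 := fun v => by simp only [hF']; ring
      simp only [e, Finset.sum_add_distrib, ← Finset.mul_sum, h0, mul_zero, add_zero,
        Finset.sum_const, Finset.card_univ, nsmul_eq_mul, hcard]
    nlinarith [mul_nonneg (sq_nonneg (p : ℝ)) (sq_nonneg μ)]
  have hlin : ∀ v, lineSum F v = lineSum F' v + p * μ := fun v => by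
    simp only [lineSum, hF', Finset.sum_sub_distrib, Finset.sum_const, Finset.card_univ,
      ZMod.card, nsmul_eq_mul]
    ring
  have hmain : ∑ v, lineSum F' v * G v ≤
      Real.sqrt p * Real.sqrt ((∑ v, F v ^ 2) * ∑ v, G v ^ 2) := by
    refine (Real.sum_mul_le_sqrt_mul_sqrt _ _ _).trans ?_
    rw [← Real.sqrt_mul (by positivity), ← Real.sqrt_mul hp.le, ← mul_assoc]
    refine Real.sqrt_le_sqrt (mul_le_mul_of_nonneg_right ?_ (Finset.sum_nonneg fun v _ => sq_nonneg _))
    refine (sum_lineSum_sq_le F').trans ?_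
    rw [h0, sq, mul_zero, zero_add]
    exact mul_le_mul_of_nonneg_left h2 hp.le
  simp only [hlin, add_mul, Finset.sum_add_distrib, ← Finset.mul_sum]
  have e : (p : ℝ) * μ * ∑ v, G v = s * (∑ v, G v) / p := by rw [hμ]; field_simp
  rw [e]
  linarith

end Vale.Agent.P067.Rank2
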